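import Vale.Agent.P210.Width

open Real

namespace Vale.Agent.Results.P210.RotSymWidth

open Vale.Agent.P210

theorem result (n : ℕ) (hn : 3 ≤ n) (F : ℝ → ℝ) (hF : ContDiffOn ℝ 2 F (Set.Ioi 0))
    (U : Set (EuclideanSpace ℝ (Fin n))) (hU : ∀ x, x ≠ 0 → x ∈ U)
    (hS : ∀ x : EuclideanSpace ℝ (Fin n), x ≠ 0 →
      1 ≤ scalarCurvature
        (fun y => exp (2 * F (‖y‖ ^ 2)) • (1 : Matrix (Fin n) (Fin n) ℝ)) x) :
    ∃ f : EuclideanSpace ℝ (Fin n) → ℝ, Continuous f ∧ ∀ x ∈ U, ∀ y ∈ U, f x = f y →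
      riemDist (fun z => exp (2 * F (‖z‖ ^ 2)) • (1 : Matrix (Fin n) (Fin n) ℝ)) U x y ≤
        ENNReal.ofReal (π * sqrt ((n : ℝ) * ((n : ℝ) - 1))) :=
  ⟨fun x => ‖x‖, continuous_norm, fun _ hx _ _ h => sphere_dist_le hn hF hS U hU hx h⟩

end Vale.Agent.Results.P210.RotSymWidth
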